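import Vale.Agent.Lib.P047.H15.NearFull
import Vale.Agent.Lib.P047.H2.DegFour

namespace Vale.Agent.Results.P047.H2_NearFullDegree

open Vale.Agent.Lib.P047.H2

/-- The majority bound `B_d = E|X_1 + ... + X_d|` for Boolean functions of almost full degree.
Here `{-1,1}^n` is `Fin n → Bool` with `true` standing for `+1`, a Boolean function `f` is read
as `x ↦ sgn (f x)`, `fourier G S` is the Fourier coefficient at `S`, `degree G` the degree, and
`B_d` is written out as the average of `|y_1 + ... + y_d|` over the cube `{-1,1}^d`.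

(1) If `f` is a Boolean function on `n ≤ d + 2` variables of degree at most `d`, then the sum of
its level-one Fourier coefficients is at most `B_d`.
(2) The same holds for `n ≤ d + 3` when `n` is even.
(3) On `7` variables there is a Boolean function of degree at most `4` whose level-one sum is
larger than `B_4`, so (1) does not extend to `n = d + 3` in general. -/
theorem result :
    (∀ (n d : ℕ) (f : (Fin n → Bool) → Bool), n ≤ d + 2 →
      degree (fun x => sgn (f x)) ≤ d →
      ∑ i, fourier (fun x => sgn (f x)) {i}
        ≤ (∑ y : Fin d → Bool, |∑ j, sgn (y j)|) / 2 ^ d) ∧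
    (∀ (n d : ℕ) (f : (Fin n → Bool) → Bool), Even n → n ≤ d + 3 →
      degree (fun x => sgn (f x)) ≤ d →
      ∑ i, fourier (fun x => sgn (f x)) {i}
        ≤ (∑ y : Fin d → Bool, |∑ j, sgn (y j)|) / 2 ^ d) ∧
    (∃ f : (Fin 7 → Bool) → Bool,
      degree (fun x => sgn (f x)) ≤ 4 ∧
      (∑ y : Fin 4 → Bool, |∑ j, sgn (y j)|) / 2 ^ 4
        < ∑ i, fourier (fun x => sgn (f x)) {i}) := by
  refine ⟨fun n d f hnd hdeg => H15.near_full n d f hnd hdeg, ?_, ?_⟩
  · intro n d f hn hnd hdeg
    rcases Nat.lt_or_ge n (d + 3) with h | h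
    · exact H15.near_full n d f (by omega) hdeg
    · have hodd : Odd d := by
        obtain ⟨a, ha⟩ := hn
        exact ⟨a - 2, by omega⟩
      have h1 := H15.near_full n (d + 1) f (by omega) (le_trans hdeg (Nat.le_succ d))
      rw [abs_mean_succ_of_odd d hodd] at h1
      exact h1
  · refine ⟨cubeFun fourCube, four_degree, ?_⟩
    rw [abs_mean_four, four_levelOne]
    norm_num

end Vale.Agent.Results.P047.H2_NearFullDegree
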