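import Vale.Agent.Lib.P047.H2.DegFour

namespace Vale.Agent.Results.P047.H2_NewLowerBounds

open Vale.Agent.Lib.P047.H2

/-- Boolean functions whose level-one Fourier sums exceed the majority value, in every degree
`d ≥ 4`.  Here `{-1,1}^n` is `Fin n → Bool` with `true` standing for `+1`, a Boolean function
`F` is read as `x ↦ sgn (F x)`, `fourier G S` is the Fourier coefficient at `S` and `degree G`
the degree.

For every `d ≥ 4` there is a Boolean function of degree at most `d` whose level-one sum is
larger than `E|X_1 + ... + X_d|` (written out as the average of `|x_1 + ... + x_d|` over the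
cube).  Moreover: a Boolean function of degree at most 4 on 7 variables has level-one sum
`7/4`; a balanced Boolean function of degree at most 5 on 10 variables has level-one
sum `17/8`; a Boolean function of degree at most 7 on 13 variables has level-one sum `75/32`;
and for every `k` a balanced Boolean function of degree at most `5 ^ (k + 1)` has level-one sum
`(17/8) ^ (k + 1)`. -/
theorem result :
    (∀ d : ℕ, 4 ≤ d → ∃ (N : ℕ) (F : (Fin N → Bool) → Bool),
      degree (fun x => sgn (F x)) ≤ d ∧
      (∑ x : Fin d → Bool, |∑ i, sgn (x i)|) / 2 ^ d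
        < ∑ i, fourier (fun x => sgn (F x)) {i}) ∧
    (∃ F : (Fin 7 → Bool) → Bool,
      degree (fun x => sgn (F x)) ≤ 4 ∧
      ∑ i, fourier (fun x => sgn (F x)) {i} = 7 / 4) ∧
    (∃ F : (Fin 10 → Bool) → Bool,
      fourier (fun x => sgn (F x)) ∅ = 0 ∧
      degree (fun x => sgn (F x)) ≤ 5 ∧
      ∑ i, fourier (fun x => sgn (F x)) {i} = 17 / 8) ∧
    (∃ F : (Fin 13 → Bool) → Bool,
      degree (fun x => sgn (F x)) ≤ 7 ∧
      ∑ i, fourier (fun x => sgn (F x)) {i} = 75 / 32) ∧
    (∀ k : ℕ, ∃ (N : ℕ) (F : (Fin N → Bool) → Bool),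
      fourier (fun x => sgn (F x)) ∅ = 0 ∧
      degree (fun x => sgn (F x)) ≤ 5 ^ (k + 1) ∧
      ∑ i, fourier (fun x => sgn (F x)) {i} = (17 / 8 : ℝ) ^ (k + 1)) :=
  ⟨beats_majority_four, exists_degree_four, exists_degree_five, exists_degree_seven_better,
    exists_powers_of_five⟩

end Vale.Agent.Results.P047.H2_NewLowerBounds
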