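import Vale.Agent.Lib.P047.H2.OneSidedBool
import Vale.Agent.Lib.P047.H2.TwoSidedFinal

namespace Vale.Agent.Results.P047.H2_SubcubeBounds

open Vale.Agent.Lib.P047.H2

open Classical in
/-- Level-one bounds for Boolean functions built from subcubes.  Here `{-1,1}^n` is
`Fin n → Bool` with `true` standing for `+1`, the Boolean function `f` is read as
`x ↦ sgn (f x)`, a subcube is a map `c : Fin n → Option Bool`, and `μ` is the density of a
level set.

First part: one level set of `f` is a disjoint union of subcubes.  Second part: the set of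
ones of `f` is a nonnegative combination of subcubes.  Third part: `f` is constant on every
cell of a partition of the cube into subcubes; the first bound there is the square root of the
average codimension of the cell of a uniformly random point, the second is
`E|X_1 + ... + X_d|` when all cells have codimension at most `d`. -/
theorem result :
    (∀ (n : ℕ) (f : (Fin n → Bool) → Bool) (v : Bool)
        (cubes : Finset (Fin n → Option Bool)) (μ : ℝ),
      (∀ x : Fin n → Bool, f x = v ↔ ∃ c ∈ cubes, InCube c x) →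
      (∀ c ∈ cubes, ∀ c' ∈ cubes, ∀ x : Fin n → Bool, InCube c x → InCube c' x → c = c') →
      μ = ((Finset.univ.filter fun x : Fin n → Bool => f x = v).card : ℝ) / 2 ^ n →
      (∑ i, |fourierOne (fun x => sgn (f x)) i|
        ≤ 2 * Real.sqrt (2 * μ * Real.log (1 / μ) *
            ∑ c ∈ cubes, (codim c : ℝ) / 2 ^ codim c)) ∧
      ∀ d : ℕ, (∀ c ∈ cubes, codim c ≤ d) →
        (∑ i, |fourierOne (fun x => sgn (f x)) i|
          ≤ 2 * μ * Real.sqrt (2 * d * Real.log (1 / μ))) ∧
        (∑ i, |fourierOne (fun x => sgn (f x)) i|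
          ≤ 2 / Real.sqrt (Real.exp 1) * Real.sqrt d)) ∧
    (∀ (n : ℕ) (f : (Fin n → Bool) → Bool)
        (cubes : Finset (Fin n → Option Bool)) (w : (Fin n → Option Bool) → ℝ) (μ : ℝ),
      (∀ c ∈ cubes, 0 ≤ w c) →
      (∀ x : Fin n → Bool,
        (∑ c ∈ cubes, if InCube c x then w c else 0) = if f x = true then 1 else 0) →
      μ = ((Finset.univ.filter fun x : Fin n → Bool => f x = true).card : ℝ) / 2 ^ n →
      (∑ i, |fourierOne (fun x => sgn (f x)) i|
        ≤ 2 * Real.sqrt (2 * μ * Real.log (1 / μ) *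
            ∑ c ∈ cubes, w c * codim c / 2 ^ codim c)) ∧
      ∀ d : ℕ, (∀ c ∈ cubes, codim c ≤ d) →
        (∑ i, |fourierOne (fun x => sgn (f x)) i|
          ≤ 2 * μ * Real.sqrt (2 * d * Real.log (1 / μ))) ∧
        (∑ i, |fourierOne (fun x => sgn (f x)) i|
          ≤ 2 / Real.sqrt (Real.exp 1) * Real.sqrt d)) ∧
    (∀ (n : ℕ) (f : (Fin n → Bool) → Bool) (cubes : Finset (Fin n → Option Bool)),
      (∀ x : Fin n → Bool, ∃ c ∈ cubes, InCube c x) →
      (∀ c ∈ cubes, ∀ c' ∈ cubes, ∀ x : Fin n → Bool, InCube c x → InCube c' x → c = c') →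
      (∀ c ∈ cubes, ∀ x y : Fin n → Bool, InCube c x → InCube c y → f x = f y) →
      (∑ i, |fourierOne (fun x => sgn (f x)) i|
        ≤ Real.sqrt (∑ c ∈ cubes, (codim c : ℝ) / 2 ^ codim c)) ∧
      ∀ d : ℕ, (∀ c ∈ cubes, codim c ≤ d) →
        ∑ i, |fourierOne (fun x => sgn (f x)) i|
          ≤ (∑ k ∈ Finset.range (d + 1), (d.choose k : ℝ) * |2 * (k : ℝ) - d|) / 2 ^ d) := by
  refine ⟨?_, ?_, ?_⟩
  · intro n f v cubes μ hcover hdisj hμ
    exact onesided_disjoint_level f v cubes hcover hdisj μ hμ
  · intro n f cubes w μ hw hrep hμ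
    exact onesided_conical f cubes w hw hrep μ hμ
  · intro n f cubes hcover hdisj hconst
    exact ⟨twosided_partition f cubes hcover hdisj hconst,
      fun d hd => twosided_partition_sharp f cubes hcover hdisj hconst d hd⟩

end Vale.Agent.Results.P047.H2_SubcubeBounds
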