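import Vale.Agent.Lib.P047.H2.TensorFinal

namespace Vale.Agent.Results.P047.H2_TensorPower

open Vale.Agent.Lib.P047.H2

/-- Self-improvement of the weak form of the square-root conjecture.  Here `{-1,1}^n` is
`Fin n → Bool` with `true` standing for `+1`, a Boolean function `f` is read as `x ↦ sgn (f x)`,
`fourier F S` is the Fourier coefficient at `S` and `degree F` the degree.

First part (amplification): from any Boolean `f` one gets, for every `k`, a balanced Boolean
`F` of degree at most `D ^ (k + 1)`, `D = 2 * (deg f / 2) + 1`, whose level-one sum is the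
`(k + 1)`-st power of `sum_i f^({i}) + |f^(∅)|`.

Second part: the weak form with an arbitrary constant `C` is equivalent to the bound
`sum_i f^({i}) + |f^(∅)| ≤ sqrt (2 * (deg f / 2) + 1)` for all Boolean `f`. -/
theorem result :
    (∀ (n : ℕ) (f : (Fin n → Bool) → Bool) (k : ℕ),
      ∃ (N : ℕ) (F : (Fin N → Bool) → Bool),
        fourier (fun x => sgn (F x)) ∅ = 0 ∧
        degree (fun x => sgn (F x)) ≤ (2 * (degree (fun x => sgn (f x)) / 2) + 1) ^ (k + 1) ∧
        ∑ i, fourier (fun x => sgn (F x)) {i}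
          = (∑ i, fourier (fun x => sgn (f x)) {i} + |fourier (fun x => sgn (f x)) ∅|) ^ (k + 1)) ∧
    ((∃ C : ℝ, ∀ (n : ℕ) (f : (Fin n → Bool) → Bool),
        ∑ i, fourier (fun x => sgn (f x)) {i} ≤ C * Real.sqrt (degree (fun x => sgn (f x)))) ↔
      ∀ (n : ℕ) (f : (Fin n → Bool) → Bool),
        ∑ i, fourier (fun x => sgn (f x)) {i} + |fourier (fun x => sgn (f x)) ∅|
          ≤ Real.sqrt ((2 * (degree (fun x => sgn (f x)) / 2) + 1 : ℕ))) := by
  refine ⟨amplify, ?_, ?_⟩
  · rintro ⟨C, hC⟩
    exact weak_to_strong C hC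
  · intro h
    exact ⟨Real.sqrt 2, strong_to_weak h⟩

end Vale.Agent.Results.P047.H2_TensorPower
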